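import Mathlib

namespace Vale.Agent.Lib.P238

/-- Levenshtein (edit) distance between two binary words: the least number of single-symbol
insertions, deletions and substitutions turning one word into the other, given by the
standard recursion. -/
def lev : List Bool → List Bool → ℕ
  | [], ys => ys.length
  | xs, [] => xs.length
  | x :: xs, y :: ys =>
    if x = y then lev xs ys
    else 1 + min (lev xs ys) (min (lev xs (y :: ys)) (lev (x :: xs) ys))
termination_by xs ys => xs.length + ys.length

end Vale.Agent.Lib.P238
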