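import Mathlib
import Vale.Agent.Lib.P238.Defs

namespace Vale.Agent.Lib.P238


open MeasureTheory Finset

theorem ind_fun_eq (a b : ℝ) (h : a ≤ b) :
    (fun t : ℝ => |(if t < a then (1:ℝ) else 0) - (if t < b then 1 else 0)|)
      = Set.indicator (Set.Ico a b) (fun _ => (1:ℝ)) := by
  ext t
  by_cases h1 : t < a
  · have h2 : t < b := lt_of_lt_of_le h1 h
    simp [h1, h2, Set.indicator, not_le.mpr h1]
  · by_cases h2 : t < b
    · simp [h1, h2, Set.indicator, not_lt.mp h1]
    · simp [h1, h2, Set.indicator]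

theorem ind_integrable (a b : ℝ) :
    Integrable (fun t : ℝ => |(if t < a then (1:ℝ) else 0) - (if t < b then 1 else 0)|) := by
  rcases le_total a b with h | h
  · rw [ind_fun_eq a b h]
    exact (integrable_indicator_iff measurableSet_Ico).mpr (integrableOn_const (by simp))
  · have : (fun t : ℝ => |(if t < a then (1:ℝ) else 0) - (if t < b then 1 else 0)|)
        = (fun t : ℝ => |(if t < b then (1:ℝ) else 0) - (if t < a then 1 else 0)|) := by
      ext t; rw [abs_sub_comm]
    rw [this, ind_fun_eq b a h]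
    exact (integrable_indicator_iff measurableSet_Ico).mpr (integrableOn_const (by simp))

theorem ind_integral (a b : ℝ) :
    ∫ t : ℝ, |(if t < a then (1:ℝ) else 0) - (if t < b then 1 else 0)| = |a - b| := by
  rcases le_total a b with h | h
  · rw [ind_fun_eq a b h, integral_indicator_const _ measurableSet_Ico,
      Real.volume_real_Ico_of_le h, abs_sub_comm, abs_of_nonneg (sub_nonneg.mpr h)]
    simp
  · have : (fun t : ℝ => |(if t < a then (1:ℝ) else 0) - (if t < b then 1 else 0)|)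
        = (fun t : ℝ => |(if t < b then (1:ℝ) else 0) - (if t < a then 1 else 0)|) := by
      ext t; rw [abs_sub_comm]
    rw [this, ind_fun_eq b a h, integral_indicator_const _ measurableSet_Ico,
      Real.volume_real_Ico_of_le h, abs_of_nonneg (sub_nonneg.mpr h)]
    simp

/-- A linear inequality valid for all cut semimetrics is valid for all real-valued maps. -/
theorem cut_to_line {ι : Type*} [Fintype ι] (w : ι → ι → ℤ)
    (hcut : ∀ s : ι → Bool, 0 ≤ ∑ i, ∑ j, w i j * (if s i = s j then 0 else 1))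
    (x : ι → ℝ) : 0 ≤ ∑ i, ∑ j, (w i j : ℝ) * |x i - x j| := by
  have h1 : ∑ i, ∑ j, (w i j : ℝ) * |x i - x j|
      = ∫ t : ℝ, ∑ i, ∑ j, (w i j : ℝ) *
          |(if t < x i then (1:ℝ) else 0) - (if t < x j then 1 else 0)| := by
    rw [integral_finsetSum]
    · apply Finset.sum_congr rfl
      intro i _
      rw [integral_finsetSum]
      · apply Finset.sum_congr rfl
        intro j _
        rw [integral_const_mul, ind_integral]
      · intro j _
        exact (ind_integrable _ _).const_mul _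
    · intro i _
      apply integrable_finsetSum
      intro j _
      exact (ind_integrable _ _).const_mul _
  rw [h1]
  apply integral_nonneg
  intro t
  have h2 := hcut (fun i => decide (t < x i))
  have h3 : ∑ i, ∑ j, (w i j : ℝ) * |(if t < x i then (1:ℝ) else 0) - (if t < x j then 1 else 0)|
      = ((∑ i, ∑ j, w i j * (if (decide (t < x i)) = (decide (t < x j)) then 0 else 1) : ℤ) : ℝ) := by
    push_cast
    apply Finset.sum_congr rfl
    intro i _
    apply Finset.sum_congr rfl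
    intro j _
    by_cases hi : t < x i <;> by_cases hj : t < x j <;> simp [hi, hj]
  show 0 ≤ ∑ i, ∑ j, (w i j : ℝ) * |(if t < x i then (1:ℝ) else 0) - (if t < x j then 1 else 0)|
  rw [h3]
  exact_mod_cast h2

theorem l1_norm_eq (u : lp (fun _ : ℕ => ℝ) 1) : ‖u‖ = ∑' k, |u k| := by
  have h := lp.norm_eq_tsum_rpow (p := 1) (by simp) u
  simpa using h

theorem l1_summable (u : lp (fun _ : ℕ => ℝ) 1) : Summable (fun k => |u k|) := by
  have h := (lp.memℓp u).summable (by simp)
  simpa using h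

/-- A linear inequality valid for all cut semimetrics is valid in `ℓ¹`. -/
theorem cut_to_l1 {ι : Type*} [Fintype ι] (w : ι → ι → ℤ)
    (hcut : ∀ s : ι → Bool, 0 ≤ ∑ i, ∑ j, w i j * (if s i = s j then 0 else 1))
    (F : ι → lp (fun _ : ℕ => ℝ) 1) : 0 ≤ ∑ i, ∑ j, (w i j : ℝ) * ‖F i - F j‖ := by
  have h1 : ∑ i, ∑ j, (w i j : ℝ) * ‖F i - F j‖
      = ∑' k, ∑ i, ∑ j, (w i j : ℝ) * |F i k - F j k| := by
    rw [Summable.tsum_finsetSum]
    · apply Finset.sum_congr rfl
      intro i _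
      rw [Summable.tsum_finsetSum]
      · apply Finset.sum_congr rfl
        intro j _
        rw [tsum_mul_left, l1_norm_eq]
        rfl
      · intro j _
        exact (l1_summable (F i - F j)).mul_left _
    · intro i _
      apply summable_sum
      intro j _
      exact (l1_summable (F i - F j)).mul_left _
  rw [h1]
  apply tsum_nonneg
  intro k
  exact cut_to_line w hcut (fun i => F i k)


theorem lev_cons_same (a : Bool) (xs ys : List Bool) : lev (a :: xs) (a :: ys) = lev xs ys := by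
  rw [lev]; simp

theorem lev_pad (k : ℕ) (xs ys : List Bool) :
    lev (List.replicate k false ++ xs) (List.replicate k false ++ ys) = lev xs ys := by
  induction k with
  | zero => simp
  | succ k ih => rw [List.replicate_succ, List.cons_append, List.cons_append, lev_cons_same, ih]

/-- weights of the pentagonal inequality on five points: `-1` inside the groups `{0,1,2}` and
`{3,4}`, `+1` across. -/
def pw (i j : Fin 5) : ℤ :=
  if i = j then 0 else if (i.val < 3 ↔ j.val < 3) then -1 else 1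

theorem penta_cut : ∀ s : Fin 5 → Bool, 0 ≤ ∑ i, ∑ j, pw i j * (if s i = s j then 0 else 1) := by
  decide

theorem penta_l1 (F : Fin 5 → lp (fun _ : ℕ => ℝ) 1) :
    ‖F 0 - F 1‖ + ‖F 0 - F 2‖ + ‖F 1 - F 2‖ + ‖F 3 - F 4‖
      ≤ ‖F 0 - F 3‖ + ‖F 0 - F 4‖ + ‖F 1 - F 3‖ + ‖F 1 - F 4‖ + ‖F 2 - F 3‖ + ‖F 2 - F 4‖ := by
  have h := cut_to_l1 pw penta_cut F
  simp only [Fin.sum_univ_five] at h
  have e : ∀ i j : Fin 5, ‖F i - F j‖ = ‖F j - F i‖ := fun i j => norm_sub_rev _ _
  rw [e 1 0, e 2 0, e 2 1, e 3 0, e 3 1, e 3 2, e 4 0, e 4 1, e 4 2, e 4 3] at h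
  simp +decide [pw] at h
  linarith

theorem main (n : ℕ) (hn : 4 ≤ n) (f : List Bool → lp (fun _ : ℕ => ℝ) 1) (A B : ℝ)
    (hA : ∀ x y : List Bool, x.length = n → y.length = n → ‖f x - f y‖ ≤ A * (lev x y : ℝ))
    (hB : ∀ x y : List Bool, x.length = n → y.length = n → (lev x y : ℝ) ≤ B * ‖f x - f y‖) :
    5 / 4 ≤ A * B := by
  obtain ⟨pad, hpad⟩ : ∃ pad : List Bool → List Bool,
      pad = fun w => List.replicate (n - 4) false ++ w := ⟨_, rfl⟩
  have hlen : ∀ w : List Bool, w.length = 4 → (pad w).length = n := by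
    intro w hw; rw [hpad]; simp [hw]; omega
  have hlev : ∀ u v : List Bool, lev (pad u) (pad v) = lev u v := by
    intro u v; rw [hpad]; exact lev_pad _ u v
  obtain ⟨a1, ha1⟩ : ∃ a : List Bool, a = [false, false, false, true] := ⟨_, rfl⟩
  obtain ⟨a2, ha2⟩ : ∃ a : List Bool, a = [false, true, true, true] := ⟨_, rfl⟩
  obtain ⟨a3, ha3⟩ : ∃ a : List Bool, a = [true, false, true, false] := ⟨_, rfl⟩
  obtain ⟨b1, hb1⟩ : ∃ a : List Bool, a = [false, false, true, true] := ⟨_, rfl⟩
  obtain ⟨b2, hb2⟩ : ∃ a : List Bool, a = [false, true, false, true] := ⟨_, rfl⟩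
  have l1 : a1.length = 4 := by rw [ha1]; rfl
  have l2 : a2.length = 4 := by rw [ha2]; rfl
  have l3 : a3.length = 4 := by rw [ha3]; rfl
  have l4 : b1.length = 4 := by rw [hb1]; rfl
  have l5 : b2.length = 4 := by rw [hb2]; rfl
  have d12 : lev a1 a2 = 2 := by rw [ha1, ha2]; simp [lev]
  have d13 : lev a1 a3 = 3 := by rw [ha1, ha3]; simp [lev]
  have d23 : lev a2 a3 = 3 := by rw [ha2, ha3]; simp [lev]
  have d45 : lev b1 b2 = 2 := by rw [hb1, hb2]; simp [lev]
  have d14 : lev a1 b1 = 1 := by rw [ha1, hb1]; simp [lev]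
  have d15 : lev a1 b2 = 1 := by rw [ha1, hb2]; simp [lev]
  have d24 : lev a2 b1 = 1 := by rw [ha2, hb1]; simp [lev]
  have d25 : lev a2 b2 = 1 := by rw [ha2, hb2]; simp [lev]
  have d34 : lev a3 b1 = 2 := by rw [ha3, hb1]; simp [lev]
  have d35 : lev a3 b2 = 2 := by rw [ha3, hb2]; simp [lev]
  have hp := penta_l1 ![f (pad a1), f (pad a2), f (pad a3), f (pad b1), f (pad b2)]
  simp only [Matrix.cons_val_zero, Matrix.cons_val_one, Matrix.cons_val_two,
    Matrix.cons_val_three, Matrix.cons_val_four] at hp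
  have A14 := hA (pad a1) (pad b1) (hlen a1 l1) (hlen b1 l4)
  have A15 := hA (pad a1) (pad b2) (hlen a1 l1) (hlen b2 l5)
  have A24 := hA (pad a2) (pad b1) (hlen a2 l2) (hlen b1 l4)
  have A25 := hA (pad a2) (pad b2) (hlen a2 l2) (hlen b2 l5)
  have A34 := hA (pad a3) (pad b1) (hlen a3 l3) (hlen b1 l4)
  have A35 := hA (pad a3) (pad b2) (hlen a3 l3) (hlen b2 l5)
  have B12 := hB (pad a1) (pad a2) (hlen a1 l1) (hlen a2 l2)
  have B13 := hB (pad a1) (pad a3) (hlen a1 l1) (hlen a3 l3)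
  have B23 := hB (pad a2) (pad a3) (hlen a2 l2) (hlen a3 l3)
  have B45 := hB (pad b1) (pad b2) (hlen b1 l4) (hlen b2 l5)
  have B14 := hB (pad a1) (pad b1) (hlen a1 l1) (hlen b1 l4)
  rw [hlev] at A14 A15 A24 A25 A34 A35 B12 B13 B23 B45 B14
  rw [d14] at A14 B14
  rw [d15] at A15
  rw [d24] at A24
  rw [d25] at A25
  rw [d34] at A34
  rw [d35] at A35
  rw [d12] at B12
  rw [d13] at B13
  rw [d23] at B23
  rw [d45] at B45
  push_cast at A14 A15 A24 A25 A34 A35 B12 B13 B23 B45 B14
  have n14 : 0 ≤ ‖f (pad a1) - f (pad b1)‖ := norm_nonneg _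
  have hBpos : 0 < B := by
    by_contra hB0
    have : B * ‖f (pad a1) - f (pad b1)‖ ≤ 0 :=
      mul_nonpos_of_nonpos_of_nonneg (not_lt.mp hB0) n14
    linarith
  have e1 : B * (‖f (pad a1) - f (pad b1)‖ + ‖f (pad a1) - f (pad b2)‖ + ‖f (pad a2) - f (pad b1)‖
      + ‖f (pad a2) - f (pad b2)‖ + ‖f (pad a3) - f (pad b1)‖ + ‖f (pad a3) - f (pad b2)‖)
      ≤ B * (8 * A) := by
    apply mul_le_mul_of_nonneg_left _ hBpos.le
    linarith
  have e2 : B * (‖f (pad a1) - f (pad a2)‖ + ‖f (pad a1) - f (pad a3)‖ + ‖f (pad a2) - f (pad a3)‖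
      + ‖f (pad b1) - f (pad b2)‖)
      ≤ B * (‖f (pad a1) - f (pad b1)‖ + ‖f (pad a1) - f (pad b2)‖ + ‖f (pad a2) - f (pad b1)‖
      + ‖f (pad a2) - f (pad b2)‖ + ‖f (pad a3) - f (pad b1)‖ + ‖f (pad a3) - f (pad b2)‖) :=
    mul_le_mul_of_nonneg_left hp hBpos.le
  nlinarith

end Vale.Agent.Lib.P238
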